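import Mathlib
import Vale.Agent.Lib.P248.helper25.ABDefs

/-!
# P248: the orthant pieces of a measurable set have total volume at most its volume

For a measurable `K ⊆ ℝ^n` the `2^n` orthant pieces `piece K σ` (the part of `K` in the
closed orthant with sign pattern `σ`, reflected into the positive orthant) satisfy
`∑ σ, volume (piece K σ) ≤ volume K`: coordinate reflections preserve Lebesgue measure, the
coordinate hyperplanes are null and the open orthants are pairwise disjoint.
-/

open Vale.Agent.Lib.P248.H25 MeasureTheory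
open scoped ENNReal

namespace Vale.Agent.Lib.P248.H62

theorem refl_refl {n : ℕ} (σ : Fin n → Bool) (x : Fin n → ℝ) : refl σ (refl σ x) = x := by
  funext i
  unfold H25.refl
  split_ifs <;> simp

theorem measurePreserving_refl {n : ℕ} (σ : Fin n → Bool) :
    MeasurePreserving (refl σ) (volume : Measure (Fin n → ℝ)) volume := by
  have h : ∀ i : Fin n, MeasurePreserving (fun t : ℝ => if σ i then t else -t)
      (volume : Measure ℝ) volume := by
    intro i
    by_cases hs : σ i
    · simp only [hs, if_true]
      exact MeasurePreserving.id volume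
    · simp only [hs]
      exact Measure.measurePreserving_neg volume
  exact volume_preserving_pi h

/-- The open orthant with sign pattern `σ`. -/
def orth {n : ℕ} (σ : Fin n → Bool) : Set (Fin n → ℝ) := {x | ∀ i, 0 < refl σ x i}

theorem measurableSet_orth {n : ℕ} (σ : Fin n → Bool) : MeasurableSet (orth σ) := by
  have : orth σ = ⋂ i, {x : Fin n → ℝ | 0 < refl σ x i} := by
    ext x; simp [orth]
  rw [this]
  refine MeasurableSet.iInter fun i => ?_
  exact measurableSet_lt measurable_const
    ((measurable_pi_apply i).comp (measurePreserving_refl σ).measurable)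

theorem orth_disjoint {n : ℕ} {σ τ : Fin n → Bool} (h : σ ≠ τ) :
    Disjoint (orth σ) (orth τ) := by
  rw [Set.disjoint_left]
  intro x hσ hτ
  obtain ⟨i, hi⟩ := Function.ne_iff.mp h
  have h1 := hσ i
  have h2 := hτ i
  unfold H25.refl at h1 h2
  cases hs : σ i <;> cases ht : τ i <;> simp_all
  all_goals linarith

theorem piece_pos_eq {n : ℕ} (K : Set (Fin n → ℝ)) (σ : Fin n → Bool) :
    piece K σ ∩ {z | ∀ i, 0 < z i} = refl σ ⁻¹' (K ∩ orth σ) := by
  ext z
  simp only [piece, orth, Set.mem_inter_iff, Set.mem_ofPred_eq, Set.mem_preimage, refl_refl]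
  constructor
  · rintro ⟨⟨_, hK⟩, hpos⟩
    exact ⟨hK, hpos⟩
  · rintro ⟨hK, hpos⟩
    exact ⟨⟨fun i => (hpos i).le, hK⟩, hpos⟩

theorem volume_piece_le {n : ℕ} {K : Set (Fin n → ℝ)} (hK : MeasurableSet K)
    (σ : Fin n → Bool) : volume (piece K σ) ≤ volume (K ∩ orth σ) := by
  have hnull : volume (piece K σ \ {z | ∀ i, 0 < z i}) = 0 := by
    refine measure_mono_null (t := ⋃ i : Fin n, {z : Fin n → ℝ | z i = 0}) ?_ ?_
    · intro z hz
      simp only [Set.mem_sdiff, Set.mem_ofPred_eq, not_forall, not_lt] at hz
      obtain ⟨hz1, i, hi⟩ := hz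
      simp only [Set.mem_iUnion, Set.mem_ofPred_eq]
      exact ⟨i, le_antisymm hi (hz1.1 i)⟩
    · refine measure_iUnion_null fun i => ?_
      rw [volume_pi]
      exact Measure.pi_hyperplane (μ := fun _ : Fin n => (volume : Measure ℝ)) i 0
  calc volume (piece K σ)
      ≤ volume (piece K σ ∩ {z | ∀ i, 0 < z i}) + volume (piece K σ \ {z | ∀ i, 0 < z i}) :=
        measure_le_inter_add_sdiff _ _ _
    _ = volume (refl σ ⁻¹' (K ∩ orth σ)) := by rw [hnull, add_zero, piece_pos_eq]
    _ = volume (K ∩ orth σ) :=
        (measurePreserving_refl σ).measure_preimage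
          (hK.inter (measurableSet_orth σ)).nullMeasurableSet

/-- The orthant pieces of a measurable set have total volume at most the volume of the set. -/
theorem sum_piece_le {n : ℕ} {K : Set (Fin n → ℝ)} (hK : MeasurableSet K) :
    ∑ σ : Fin n → Bool, volume (piece K σ) ≤ volume K := by
  calc ∑ σ : Fin n → Bool, volume (piece K σ)
      ≤ ∑ σ : Fin n → Bool, volume (K ∩ orth σ) :=
        Finset.sum_le_sum fun σ _ => volume_piece_le hK σ
    _ = volume (⋃ σ ∈ (Finset.univ : Finset (Fin n → Bool)), K ∩ orth σ) := by
        refine (measure_biUnion_finset ?_ fun σ _ => hK.inter (measurableSet_orth σ)).symm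
        intro σ _ τ _ hne
        exact (orth_disjoint hne).mono Set.inter_subset_right Set.inter_subset_right
    _ ≤ volume K := by
        refine measure_mono ?_
        intro x hx
        simp only [Set.mem_iUnion] at hx
        obtain ⟨σ, _, hxK⟩ := hx
        exact hxK.1

end Vale.Agent.Lib.P248.H62
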