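import Mathlib

/-!
# P248: a Cauchy-Schwarz type inequality in `ℝ≥0∞`

If `c ≤ a i * b i` for every index `i` of a finite type with `N` elements, then
`N ^ 2 * c ≤ (∑ i, a i) * (∑ i, b i)` in `ℝ≥0∞`.  For the `2 ^ n` sign patterns this is
`4 ^ n * c ≤ (∑ σ, a σ) * (∑ σ, b σ)`.
-/

open scoped ENNReal

namespace Vale.Agent.Lib.P248.H62

theorem real_cross {x y z w c : ℝ} (hx : 0 ≤ x) (hy : 0 ≤ y) (hz : 0 ≤ z) (hw : 0 ≤ w)
    (hc : 0 ≤ c) (h1 : c ≤ x * y) (h2 : c ≤ z * w) : 2 * c ≤ x * w + z * y := by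
  by_contra hlt
  rw [not_le] at hlt
  have h0 : 0 ≤ x * w + z * y := by positivity
  have h3 : (x * w + z * y) ^ 2 < (2 * c) ^ 2 := by
    apply pow_lt_pow_left₀ hlt h0 (by norm_num)
  have h4 : c * c ≤ (x * y) * (z * w) := mul_le_mul h1 h2 hc (le_trans hc h1)
  nlinarith [sq_nonneg (x * w - z * y)]

theorem ennreal_cross (x y z w c : ℝ≥0∞) (h1 : c ≤ x * y) (h2 : c ≤ z * w) :
    2 * c ≤ x * w + z * y := by
  by_cases hc : c = 0
  · simp [hc]
  have hxy : x * y ≠ 0 := fun h => hc (le_antisymm (h ▸ h1) bot_le)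
  have hzw : z * w ≠ 0 := fun h => hc (le_antisymm (h ▸ h2) bot_le)
  have hx0 : x ≠ 0 := fun h => hxy (by simp [h])
  have hy0 : y ≠ 0 := fun h => hxy (by simp [h])
  have hz0 : z ≠ 0 := fun h => hzw (by simp [h])
  have hw0 : w ≠ 0 := fun h => hzw (by simp [h])
  by_cases hx : x = ⊤
  · simp [hx, ENNReal.top_mul hw0]
  by_cases hy : y = ⊤
  · simp [hy, ENNReal.mul_top hz0]
  by_cases hz : z = ⊤
  · simp [hz, ENNReal.top_mul hy0]
  by_cases hw : w = ⊤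
  · simp [hw, ENNReal.mul_top hx0]
  have hcT : c ≠ ⊤ := ne_top_of_le_ne_top (ENNReal.mul_ne_top hx hy) h1
  lift x to NNReal using hx
  lift y to NNReal using hy
  lift z to NNReal using hz
  lift w to NNReal using hw
  lift c to NNReal using hcT
  norm_cast at h1 h2 ⊢
  have h1' : (c : ℝ) ≤ x * y := by exact_mod_cast h1
  have h2' : (c : ℝ) ≤ z * w := by exact_mod_cast h2
  have := real_cross x.coe_nonneg y.coe_nonneg z.coe_nonneg w.coe_nonneg c.coe_nonneg h1' h2'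
  exact_mod_cast this

/-- Cauchy-Schwarz type inequality in `ℝ≥0∞`: if `c ≤ a i * b i` for all `i` then
`(card ι) ^ 2 * c ≤ (∑ i, a i) * (∑ i, b i)`. -/
theorem card_sq_mul_le_sum_mul_sum {ι : Type*} [Fintype ι] (a b : ι → ℝ≥0∞) (c : ℝ≥0∞)
    (h : ∀ i, c ≤ a i * b i) :
    (Fintype.card ι : ℝ≥0∞) ^ 2 * c ≤ (∑ i, a i) * ∑ i, b i := by
  have key : ∑ i : ι, ∑ j : ι, 2 * c ≤ ∑ i : ι, ∑ j : ι, (a i * b j + a j * b i) :=
    Finset.sum_le_sum fun i _ => Finset.sum_le_sum fun j _ =>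
      ennreal_cross (a i) (b i) (a j) (b j) c (h i) (h j)
  have hL : ∑ i : ι, ∑ j : ι, 2 * c = 2 * ((Fintype.card ι : ℝ≥0∞) ^ 2 * c) := by
    simp only [Finset.sum_const, Finset.card_univ, nsmul_eq_mul]
    ring
  have hR : ∑ i : ι, ∑ j : ι, (a i * b j + a j * b i) = 2 * ((∑ i, a i) * ∑ i, b i) := by
    have e1 : ∑ i : ι, ∑ j : ι, a i * b j = (∑ i, a i) * ∑ i, b i := by
      rw [Finset.sum_mul_sum]
    have e2 : ∑ i : ι, ∑ j : ι, a j * b i = (∑ i, a i) * ∑ i, b i := by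
      rw [Finset.sum_comm, Finset.sum_mul_sum]
    simp only [Finset.sum_add_distrib]
    rw [e1, e2, two_mul]
  rw [hL, hR] at key
  exact (ENNReal.mul_le_mul_iff_right (by norm_num) (by norm_num)).mp key

/-- The form used for the `2 ^ n` orthants. -/
theorem four_pow_mul_le {n : ℕ} (a b : (Fin n → Bool) → ℝ≥0∞) (c VA VB : ℝ≥0∞)
    (h : ∀ σ, c ≤ a σ * b σ) (hA : ∑ σ, a σ ≤ VA) (hB : ∑ σ, b σ ≤ VB) :
    (4 : ℝ≥0∞) ^ n * c ≤ VA * VB := by
  have h1 := card_sq_mul_le_sum_mul_sum a b c h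
  have hcard : (Fintype.card (Fin n → Bool) : ℝ≥0∞) ^ 2 = (4 : ℝ≥0∞) ^ n := by
    simp only [Fintype.card_fun, Fintype.card_bool, Fintype.card_fin]
    push_cast
    rw [← pow_mul, mul_comm, pow_mul]
    norm_num
  rw [hcard] at h1
  exact h1.trans (mul_le_mul' hA hB)

end Vale.Agent.Lib.P248.H62
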